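import Vale.Agent.P216.H16E.EP
import Vale.Agent.P216.S376.Inst

/-!
# The block [E] of Theorem C (P216): `S376.EGoal`
-/

namespace Vale.Agent.P216.H16E

theorem eGoal : S376.EGoal := fun _ R W => exists_ePack R W (ZMod 2) S376.ord2

end Vale.Agent.P216.H16E
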