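import Vale.Agent.P216.H16E.InterP
import Vale.Agent.P216.S376.EPack

/-!
# The contract `EPack` of the block [E] (P216, Theorem C)
-/

open Set

namespace Vale.Agent.P216.H16E

open AS DV H994

variable {Λ : Type} [MetricSpace Λ] {S : GSys Λ} (R : RotS S) (W : S.Two) (k : Type) [Field k]
  (hm : S4.Ord k 4)

/-- the localisation of the contract is `locM` -/
theorem locQ_eq {s t : ℝ} (h0 : 0 < s) (h : s ≤ t) (h' : s / (2 : ℕ) ≤ t / (2 : ℕ)) (e j : ℕ) :
    R.locQ W k hm h0.le h h' e j = locM W R k hm h h0 e j := rfl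

/-- **The contract.** -/
noncomputable def ePack : RotS.EPack R W k hm where
  eN _ _ h n := eN W k hm h n
  eR _ _ h n := eR W R k hm h n
  e_π _ _ h n x := e_π W R k hm h n x
  θ_e _ _ h n x := θ_e W k hm h n x
  ℓ_e _ _ h h' n m x := ℓ_e_of W R k hm
    (fun c hc hc' => exists_inter W k hm (famB W c hc) (famB W (hf c) hc') hc' (two_hf c)) h h' n m x

theorem exists_ePack : Nonempty (RotS.EPack R W k hm) := ⟨ePack R W k hm⟩

end Vale.Agent.P216.H16E
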