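import Vale.Agent.P216.H16E.PTh
import Vale.Agent.P216.H994.T2Iface

/-!
# Operators at all admissible pairs (P216, Theorem C, block E2)

`Fam T`: an operator at every level `c > 0` (natural on the small pairs around `c`).
`Fam.E h`: the operator on `T (s, t)` for `h : Adm crit s t`; `Fam.E_nat`: naturality, also along
maps which change the levels (`σ s = s / 2` for the localisation); `Fam.E_theta`.
-/

open Set Filter Topology

namespace Vale.Agent.P216.H16E

open H994 (Adm)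

variable {k : Type} [Field k] {crit crit' : Set ℝ}

namespace Op

variable {T : PTh k crit} {c ε s t : ℝ}

/-- The first map of the zigzag `T (s, t) → T (s, t₁) ← T (s₁, t₁)`. -/
theorem bij1 (T : PTh k crit) (h : Only crit c s t) {t1 : ℝ} (ht1 : c < t1) (ht : t1 ≤ t)
    (hst : s ≤ t1) : Function.Bijective (T.map h.le hst le_rfl ht) :=
  T.bij _ _ _ _ h.pos (h.left h.lt) (h.right ht1)

/-- The second map of the zigzag. -/
theorem bij2 (T : PTh k crit) (h : Only crit c s t) {s1 t1 : ℝ} (hs : s ≤ s1) (hs1 : s1 < c)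
    (ht1 : c < t1) (ht : t1 ≤ t) (hst : s ≤ t1) (h1 : s1 ≤ t1) :
    Function.Bijective (T.map h1 hst hs le_rfl) := by
  refine T.bij _ _ _ _ h.pos (h.left hs1) ?_
  intro w hw hwc
  have h3 := h.only w ⟨hst.trans hw.1, hw.2.trans ht⟩ hwc
  have h5 := hw.1
  linarith

/-- **The transported operator is determined by any small pair.** -/
theorem tr_spec' (O : Op T c ε) (hε : 0 < ε) (h : Only crit c s t) {s1 t1 : ℝ} (hs : s ≤ s1)
    (hs1 : s1 < c) (ht1 : c < t1) (ht : t1 ≤ t) (hst : s ≤ t1) (h1 : s1 ≤ t1)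
    (hs' : c - ε ≤ s1) (ht' : t1 ≤ c + ε) {x : T.T h.le} {y : T.T h1}
    (hxy : T.map h.le hst le_rfl ht x = T.map h1 hst hs le_rfl y) :
    T.map h.le hst le_rfl ht (O.tr hε h x) = T.map h1 hst hs le_rfl (O.e h1 hs' ht' y) := by
  obtain ⟨z, hz⟩ := (bijβ T hε h).2 (T.map h.le (s_le hε h) le_rfl (min_le_left _ _) x)
  have e1 := PTh.conj_eq (bijα T hε h) (bijβ T hε h)
    (O.e (s1_le hε h) (le_max_right _ _) (min_le_right _ _)) hz.symm
  change T.map _ _ _ _ (O.tr hε h x) = _ at e1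
  have hc1 : t1 ≤ min t (c + ε) := le_min ht ht'
  have hc2 : max s (c - ε) ≤ s1 := max_le hs hs'
  have hc3 : max s (c - ε) ≤ t1 := hc2.trans h1
  have e2 : T.map (s1_le hε h) hc3 le_rfl hc1 z = T.map h1 hc3 hc2 le_rfl y := by
    have hb : Function.Bijective (T.map hc3 hst (le_max_left s (c - ε)) le_rfl) := by
      refine T.bij _ _ _ _ h.pos (h.left (hc2.trans_lt hs1)) ?_
      intro w hw hwc
      have h3 := h.only w ⟨hst.trans hw.1, hw.2.trans ht⟩ hwc
      have h5 := hw.1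
      linarith
    refine hb.1 ?_
    rw [T.map_map, T.map_map]
    rw [← hxy]
    have e3 := congrArg (T.map (s_le hε h) hst le_rfl hc1) hz
    rw [T.map_map, T.map_map] at e3
    exact e3
  have e4 := congrArg (T.map (s_le hε h) hst le_rfl hc1) e1
  rw [T.map_map, T.map_map] at e4
  rw [e4]
  have e5 := O.nat (s1_le hε h) hc3 le_rfl hc1 (le_max_right _ _) (min_le_right _ _) z
  have e6 := O.nat h1 hc3 hc2 le_rfl (le_max_right s (c - ε)) ht' y
  have e7 := congrArg (T.map hc3 hst (le_max_left s (c - ε)) le_rfl)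
    (e5.trans ((congrArg _ e2).trans e6.symm))
  rw [T.map_map, T.map_map] at e7
  exact e7

/-- **Naturality of the transport**, along a natural family which changes the levels by `σ`;
one small pair is enough. -/
theorem tr_nat' {T : PTh k crit} {T' : PTh k crit'} {σ : ℝ → ℝ} (hσ : Monotone σ)
    (m : ∀ {s t : ℝ} (h : s ≤ t), 0 < s → (T.T h →ₗ[k] T'.T (hσ h)))
    (hm : ∀ {s t s' t' : ℝ} (h : s ≤ t) (h' : s' ≤ t') (p : 0 < s) (p' : 0 < s') (a : s' ≤ s)
      (b : t' ≤ t) (x : T.T h),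
      m h' p' (T.map h h' a b x) = T'.map (hσ h) (hσ h') (hσ a) (hσ b) (m h p x))
    {c' ε' : ℝ} (O : Op T c ε) (O' : Op T' c' ε') (hε : 0 < ε) (hε' : 0 < ε')
    (h : Only crit c s t) (h' : Only crit' c' (σ s) (σ t)) {s1 t1 : ℝ} (hs : s ≤ s1) (hs1 : s1 < c)
    (ht1 : c < t1) (ht : t1 ≤ t) (h1 : s1 ≤ t1) (hs' : c - ε ≤ s1) (ht' : t1 ≤ c + ε)
    (hsσ : σ s1 < c') (htσ : c' < σ t1) (hsσ' : c' - ε' ≤ σ s1) (htσ' : σ t1 ≤ c' + ε')
    (hO : ∀ x : T.T h1, m h1 (h.pos.trans_le hs) (O.e h1 hs' ht' x) =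
      O'.e (hσ h1) hsσ' htσ' (m h1 (h.pos.trans_le hs) x))
    (x : T.T h.le) : m h.le h.pos (O.tr hε h x) = O'.tr hε' h' (m h.le h.pos x) := by
  have hst : s ≤ t1 := hs.trans h1
  obtain ⟨y, hy⟩ := (bij2 T h hs hs1 ht1 ht hst h1).2 (T.map h.le hst le_rfl ht x)
  have e1 := O.tr_spec' hε h hs hs1 ht1 ht hst h1 hs' ht' hy.symm
  have p1 : 0 < s1 := h.pos.trans_le hs
  have hy' : T'.map (hσ h.le) (hσ hst) (hσ le_rfl) (hσ ht) (m h.le h.pos x) =
      T'.map (hσ h1) (hσ hst) (hσ hs) (hσ le_rfl) (m h1 p1 y) := by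
    rw [← hm h.le hst h.pos h.pos le_rfl ht, ← hm h1 hst p1 h.pos hs le_rfl, hy]
  have e2 := O'.tr_spec' hε' h' (hσ hs) hsσ htσ (hσ ht) (hσ hst) (hσ h1) hsσ' htσ' hy'
  refine (bij1 T' h' htσ (hσ ht) (hσ hst)).1 ?_
  refine Eq.trans ?_ e2.symm
  rw [← hO y, ← hm h.le hst h.pos h.pos le_rfl ht, ← hm h1 hst p1 h.pos hs le_rfl, e1]

end Op

/-- An operator at every positive level. -/
structure Fam (T : PTh k crit) where
  ε : ℝ → ℝ
  pos : ∀ c, 0 < c → 0 < ε c
  op : ∀ c, 0 < c → Op T c (ε c)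

namespace Fam

variable {T : PTh k crit} (O : Fam T) {s t : ℝ}

theorem only_of_adm {c s t : ℝ} (h : Adm crit s t) (hc : c ∈ crit) (hc' : c ∈ Ioo s t) :
    Only crit c s t where
  pos := h.pos
  lt := hc'.1
  lt' := hc'.2
  only x hx hxc := by
    rcases eq_or_lt_of_le hx.1 with rfl | h1
    · exact absurd hxc h.hs
    rcases eq_or_lt_of_le hx.2 with rfl | h2
    · exact absurd hxc h.ht
    exact h.one ⟨hxc, h1, h2⟩ ⟨hc, hc'⟩

open Classical in
/-- The operator on an admissible pair. -/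
noncomputable def E (h : Adm crit s t) : T.T h.le →ₗ[k] T.T h.le :=
  if hc : ∃ c, c ∈ crit ∧ c ∈ Ioo s t then
    (O.op hc.choose (h.pos.trans hc.choose_spec.2.1)).tr
      (O.pos hc.choose (h.pos.trans hc.choose_spec.2.1))
      (only_of_adm h hc.choose_spec.1 hc.choose_spec.2)
  else 0

theorem E_eq (h : Adm crit s t) {c : ℝ} (hc : c ∈ crit) (hc' : c ∈ Ioo s t) :
    O.E h = (O.op c (h.pos.trans hc'.1)).tr (O.pos c (h.pos.trans hc'.1))
      (only_of_adm h hc hc') := by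
  have h1 : ∃ c, c ∈ crit ∧ c ∈ Ioo s t := ⟨c, hc, hc'⟩
  rw [E, dif_pos h1]
  have h2 : h1.choose = c := h.one ⟨h1.choose_spec.1, h1.choose_spec.2⟩ ⟨hc, hc'⟩
  have key : ∀ (c' : ℝ) (_ : c' = c) (a : c' ∈ crit) (b : c' ∈ Ioo s t),
      (O.op c' (h.pos.trans b.1)).tr (O.pos c' (h.pos.trans b.1)) (only_of_adm h a b) =
      (O.op c (h.pos.trans hc'.1)).tr (O.pos c (h.pos.trans hc'.1)) (only_of_adm h hc hc') := by
    rintro c' rfl a b
    rfl
  exact key _ h2 h1.choose_spec.1 h1.choose_spec.2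

/-- No critical level: the group vanishes. -/
theorem subsingleton (h0 : ∀ s, Subsingleton (T.T (le_refl s))) (h : Adm crit s t)
    (hc : ¬ ∃ c, c ∈ crit ∧ c ∈ Ioo s t) : Subsingleton (T.T h.le) := by
  have hb : Function.Bijective (T.map h.le (le_refl s) le_rfl h.le) := by
    refine T.bij _ _ _ _ h.pos ?_ ?_
    · intro x hx hxc
      have : x = s := le_antisymm hx.2 hx.1
      exact h.hs (this ▸ hxc)
    · intro x hx hxc
      rcases eq_or_lt_of_le hx.1 with rfl | h1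
      · exact h.hs hxc
      rcases eq_or_lt_of_le hx.2 with rfl | h2
      · exact h.ht hxc
      exact hc ⟨x, hxc, h1, h2⟩
  have := h0 s
  exact hb.1.subsingleton

/-- **Naturality.** -/
theorem E_nat {T' : PTh k crit'} (O' : Fam T') {σ : ℝ → ℝ} (hσ : StrictMono σ)
    (hσc : Continuous σ) (hσ' : ∀ c' ∈ crit', ∃ c ∈ crit, σ c = c')
    (m : ∀ {s t : ℝ} (h : s ≤ t), 0 < s → (T.T h →ₗ[k] T'.T (hσ.monotone h)))
    (hm : ∀ {s t s' t' : ℝ} (h : s ≤ t) (h' : s' ≤ t') (p : 0 < s) (p' : 0 < s') (a : s' ≤ s)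
      (b : t' ≤ t) (x : T.T h),
      m h' p' (T.map h h' a b x) = T'.map (hσ.monotone h) (hσ.monotone h') (hσ.monotone a)
        (hσ.monotone b) (m h p x))
    (h0 : ∀ s, Subsingleton (T'.T (le_refl s)))
    (hO : ∀ c, (hc : 0 < c) → (hc' : 0 < σ c) → c ∈ crit → σ c ∈ crit' → ∃ η > 0,
      ∀ (s1 t1 : ℝ) (h1 : s1 ≤ t1), s1 < c → c < t1 → c - η ≤ s1 → t1 ≤ c + η →
      ∀ (p : 0 < s1) (a : c - O.ε c ≤ s1) (b : t1 ≤ c + O.ε c) (a' : σ c - O'.ε (σ c) ≤ σ s1)
        (b' : σ t1 ≤ σ c + O'.ε (σ c)) (x : T.T h1),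
        m h1 p ((O.op c hc).e h1 a b x) =
          (O'.op (σ c) hc').e (hσ.monotone h1) a' b' (m h1 p x))
    (h : Adm crit s t) (h' : Adm crit' (σ s) (σ t)) (x : T.T h.le) :
    m h.le h.pos (O.E h x) = O'.E h' (m h.le h.pos x) := by
  by_cases hc : ∃ c, c ∈ crit' ∧ c ∈ Ioo (σ s) (σ t)
  · obtain ⟨c', hc', hcI'⟩ := hc
    obtain ⟨c, hc, rfl⟩ := hσ' c' hc'
    have hcI : c ∈ Ioo s t := ⟨hσ.lt_iff_lt.1 hcI'.1, hσ.lt_iff_lt.1 hcI'.2⟩
    rw [O.E_eq h hc hcI, O'.E_eq h' hc' hcI']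
    have p1 : 0 < c := h.pos.trans hcI.1
    have p2 : 0 < σ c := h'.pos.trans hcI'.1
    obtain ⟨η, hη, hO⟩ := hO c p1 p2 hc hc'
    have q1 := O.pos c p1
    have q2 := O'.pos (σ c) p2
    -- a small pair
    have l1 : Tendsto (fun e : ℝ => σ (c - e)) (𝓝[>] 0) (𝓝 (σ c)) := by
      have : Continuous fun e : ℝ => σ (c - e) := hσc.comp (continuous_const.sub continuous_id)
      have h2 := this.tendsto 0
      rw [sub_zero] at h2
      exact h2.mono_left nhdsWithin_le_nhds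
    have l2 : Tendsto (fun e : ℝ => σ (c + e)) (𝓝[>] 0) (𝓝 (σ c)) := by
      have : Continuous fun e : ℝ => σ (c + e) := hσc.comp (continuous_const.add continuous_id)
      have h2 := this.tendsto 0
      rw [add_zero] at h2
      exact h2.mono_left nhdsWithin_le_nhds
    have m1 : ∀ᶠ e in 𝓝[>] (0 : ℝ), σ c - O'.ε (σ c) < σ (c - e) :=
      l1.eventually (lt_mem_nhds (by linarith))
    have m2 : ∀ᶠ e in 𝓝[>] (0 : ℝ), σ (c + e) < σ c + O'.ε (σ c) :=
      l2.eventually (gt_mem_nhds (by linarith))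
    have m3 : ∀ᶠ e in 𝓝[>] (0 : ℝ), e < min (min η (O.ε c)) (min (c - s) (t - c)) :=
      nhdsWithin_le_nhds (gt_mem_nhds (lt_min (lt_min hη q1)
        (lt_min (sub_pos.2 hcI.1) (sub_pos.2 hcI.2))))
    have m4 : ∀ᶠ e in 𝓝[>] (0 : ℝ), (0 : ℝ) < e := eventually_mem_nhdsWithin
    obtain ⟨e, e1, e2, e3, e4⟩ := (m1.and (m2.and (m3.and m4))).exists
    have f1 := e3.trans_le ((min_le_left _ _).trans (min_le_left _ _))
    have f2 := e3.trans_le ((min_le_left _ _).trans (min_le_right _ _))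
    have f3 := e3.trans_le ((min_le_right _ _).trans (min_le_left _ _))
    have f4 := e3.trans_le ((min_le_right _ _).trans (min_le_right _ _))
    refine Op.tr_nat' hσ.monotone m hm _ _ q1 q2 (only_of_adm h hc hcI) (only_of_adm h' hc' hcI')
      (s1 := c - e) (t1 := c + e) (by linarith) (by linarith) (by linarith) (by linarith)
      (by linarith) (by linarith) (by linarith) (hσ (by linarith)) (hσ (by linarith)) e1.le e2.le
      (fun y => hO (c - e) (c + e) _ (by linarith) (by linarith) (by linarith) (by linarith)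
        _ _ _ _ _ y) x
  · have := subsingleton h0 h' hc
    exact Subsingleton.elim _ _

/-- **The reversal**: `θ e = θ - e θ`. -/
theorem E_theta (θ : ∀ {s t : ℝ} (h : s ≤ t), T.T h →ₗ[k] T.T h)
    (hθ : ∀ {s t s' t' : ℝ} (h : s ≤ t) (h' : s' ≤ t') (a : s' ≤ s) (b : t' ≤ t) (x : T.T h),
      θ h' (T.map h h' a b x) = T.map h h' a b (θ h x))
    (h0 : ∀ s, Subsingleton (T.T (le_refl s)))
    (hO : ∀ c, (hc : 0 < c) → ∃ η > 0,
      ∀ (s1 t1 : ℝ) (h1 : s1 ≤ t1), s1 < c → c < t1 → c - η ≤ s1 → t1 ≤ c + η →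
      ∀ (a : c - O.ε c ≤ s1) (b : t1 ≤ c + O.ε c) (x : T.T h1),
        θ h1 ((O.op c hc).e h1 a b x) = θ h1 x - (O.op c hc).e h1 a b (θ h1 x))
    (h : Adm crit s t) (x : T.T h.le) :
    θ h.le (O.E h x) = θ h.le x - O.E h (θ h.le x) := by
  by_cases hc : ∃ c, c ∈ crit ∧ c ∈ Ioo s t
  · obtain ⟨c, hc, hcI⟩ := hc
    rw [O.E_eq h hc hcI]
    have p1 : 0 < c := h.pos.trans hcI.1
    obtain ⟨η, hη, hO⟩ := hO c p1
    have q1 := O.pos c p1
    have m3 : ∃ e, 0 < e ∧ e < min (min η (O.ε c)) (min (c - s) (t - c)) :=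
      exists_between (lt_min (lt_min hη q1) (lt_min (sub_pos.2 hcI.1) (sub_pos.2 hcI.2)))
    obtain ⟨e, e4, e3⟩ := m3
    have f1 := e3.trans_le ((min_le_left _ _).trans (min_le_left _ _))
    have f2 := e3.trans_le ((min_le_left _ _).trans (min_le_right _ _))
    have f3 := e3.trans_le ((min_le_right _ _).trans (min_le_left _ _))
    have f4 := e3.trans_le ((min_le_right _ _).trans (min_le_right _ _))
    have H := only_of_adm h hc hcI
    have hs : s ≤ c - e := by linarith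
    have hs1 : c - e < c := by linarith
    have ht1 : c < c + e := by linarith
    have ht : c + e ≤ t := by linarith
    have h1 : c - e ≤ c + e := by linarith
    have hs' : c - O.ε c ≤ c - e := by linarith
    have ht' : c + e ≤ c + O.ε c := by linarith
    have hst : s ≤ c + e := hs.trans h1
    obtain ⟨y, hy⟩ := (Op.bij2 T H hs hs1 ht1 ht hst h1).2 (T.map h.le hst le_rfl ht x)
    have e1 := (O.op c p1).tr_spec' q1 H hs hs1 ht1 ht hst h1 hs' ht' hy.symm
    have hy' : T.map h.le hst le_rfl ht (θ h.le x) = T.map h1 hst hs le_rfl (θ h1 y) := by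
      rw [← hθ h.le hst le_rfl ht, ← hθ h1 hst hs le_rfl, hy]
    have e2 := (O.op c p1).tr_spec' q1 H hs hs1 ht1 ht hst h1 hs' ht' hy'
    refine (Op.bij1 T H ht1 ht hst).1 ?_
    rw [← hθ h.le hst le_rfl ht, map_sub, e2, hy', e1, hθ h1 hst hs le_rfl,
      hO _ _ h1 hs1 ht1 (by linarith) (by linarith) hs' ht' y, map_sub]
  · have := subsingleton h0 h hc
    exact Subsingleton.elim _ _

end Fam

end Vale.Agent.P216.H16E
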