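import Vale.Agent.P216.H16E.LocE

/-!
# The two cut operators are intertwined by the pull back along `ψ` (P216, Theorem C, block E)
-/

open Set

namespace Vale.Agent.P216.H16E

open AS AS.GCx.Pair DV DV.Circ H467E H941S

variable {Λ : Type} [MetricSpace Λ] {S : GSys Λ} (W : S.Two) (k : Type) [Field k]
  (hm : S4.Ord k 4) {a ε a' ε' : ℝ} (B : FamD S 4 a ε) (B' : FamD S 4 a' ε')

/-- an open set whose trace on `X T` is the preimage of an open set -/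
theorem exists_open_pre {T : ℝ} (hT : 0 ≤ T) {O : Set Λ} (hO : IsOpen O) :
    ∃ V, IsOpen V ∧ ∀ x ∈ S.X T, (x ∈ V ↔ W.ψ x ∈ O) := by
  obtain ⟨V, hV, h⟩ := continuousOn_iff'.1 (W.ψ_cont T hT) O hO
  refine ⟨V, hV, fun x hx => ⟨fun h1 => ?_, fun h1 => ?_⟩⟩
  · have h2 : x ∈ V ∩ S.X T := ⟨h1, hx⟩
    rw [← h] at h2
    exact h2.1
  · have h2 : x ∈ W.ψ ⁻¹' O ∩ S.X T := ⟨h1, hx⟩
    rw [h] at h2
    exact h2.1

/-- **Statement (3).** -/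
theorem exists_inter (ha' : 0 < a') (haa : 2 * a' = a) : ∃ η > 0, Inter W k hm B B' η := by
  -- the small neighbourhoods
  have hT : 0 ≤ a' + 1 := by linarith
  obtain ⟨V₁, hV₁, hV₁'⟩ := exists_open_pre W hT B.open₁
  obtain ⟨V₂, hV₂, hV₂'⟩ := exists_open_pre W hT B.open₂
  have hX1 : S.X a' ⊆ S.X (a' + 1) := S.mono _ _ (by linarith)
  have hK1 : S.K1 a' ⊆ B'.O₁ ∩ V₁ := fun x hx => by
    have hx' := S.K1_sub a' ha' hx
    refine ⟨B'.K₁ hx, (hV₁' x (hX1 hx')).2 (B.K₁ ?_)⟩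
    rw [← haa]
    exact (W.ψ_K1 a' ha' x hx').2 hx
  have hK2 : S.K2 a' ⊆ B'.O₂ ∩ V₂ := fun x hx => by
    have hx' := S.K2_sub a' ha' hx
    refine ⟨B'.K₂ hx, (hV₂' x (hX1 hx')).2 (B.K₂ ?_)⟩
    rw [← haa]
    exact (W.ψ_K2 a' ha' x hx').2 hx
  obtain ⟨ε₀, hε₀, -, C, hC1, hC2⟩ := exists_fam W ha' (B'.open₁.inter hV₁)
    (B'.open₂.inter hV₂) hK1 hK2
  refine ⟨min ε₀ 1, lt_min hε₀ one_pos, ?_⟩
  intro s t q r h' h h0 hq hr l1 l2 hs ht hs' ht' j y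
  have m1 : min ε₀ 1 ≤ ε₀ := min_le_left _ _
  have m2 : min ε₀ 1 ≤ 1 := min_le_right _ _
  have hsC : a' - ε₀ ≤ q := by linarith
  have htC : r ≤ a' + ε₀ := by linarith
  have hr1 : r ≤ a' + 1 := by linarith
  have hr0 : 0 ≤ r := h0.trans h
  have cC := C.isCut h hsC htC
  have cB' := B'.isCut h hs' ht'
  have cB := B.isCut_fix 2 h' hs ht
  -- points of `N_i` of the third family
  have hD : ∀ x ∈ S.X r, C.D 1 x ∈ S.X r := fun x hx =>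
    C.D_mem 1 ⟨zero_le_one, le_rfl⟩ r htC hx
  have g1 : ∀ x ∈ S.X r, x ∈ C.N₁ → C.D 1 x ∈ B'.O₁ ∧ W.ψ (C.D 1 x) ∈ B.O₁ := fun x hx hN => by
    have h1 := (hC1 x (S.mono _ _ htC hx) hN).2
    exact ⟨h1.1, (hV₁' _ (S.mono _ _ hr1 (hD x hx))).1 h1.2⟩
  have g2 : ∀ x ∈ S.X r, x ∈ C.N₂ → C.D 1 x ∈ B'.O₂ ∧ W.ψ (C.D 1 x) ∈ B.O₂ := fun x hx hN => by
    have h1 := (hC2 x (S.mono _ _ htC hx) hN).2
    exact ⟨h1.1, (hV₂' _ (S.mono _ _ hr1 (hD x hx))).1 h1.2⟩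
  have hψ : ∀ x ∈ S.X r, W.ψ x ∈ S.X (a + ε) := fun x hx =>
    S.mono _ _ ht (GSys.Two.F2_sub S t (W.mapsTo_F2 hr hr0 hx))
  -- independence at the level `a'`
  have e1 : ∀ z : H (Zr (fun _ : Unit => S.τ) (fun _ : Unit => (-1 : k)) (S.X r) (S.X q))
      (Zr (fun _ : Unit => S.τ) (fun _ : Unit => (-1 : k)) (S.X r) (S.X r)) j,
      cB'.eW (fun _ : Unit => (-1 : k)) j z = cC.eW (fun _ : Unit => (-1 : k)) j z := by
    intro z
    have hid : IsMap (fun _ : Unit => S.τ) (fun _ : Unit => S.τ) (S.X r) (S.X r) (fun x => x) :=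
      IsMap.of_continuousOn (S.compact _) continuousOn_id (fun x hx => hx) fun _ _ _ => rfl
    have h1 := IsCut.pull_eW (χ := fun _ : Unit => (-1 : k)) cB' cC hid (fun x hx => hx)
      (fun x hx => hx)
      (fun x hx hN hN' => B'.disj _ (S.mono _ _ ht' (hD x hx))
        (B'.sub₁ _ (S.mono _ _ ht' (hD x hx)) (g1 x hx hN).1) hN')
      (fun x hx hN hN' => B'.disj _ (S.mono _ _ ht' (hD x hx)) hN'
        (B'.sub₂ _ (S.mono _ _ ht' (hD x hx)) (g2 x hx hN).1)) j z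
    have h2 : ∀ w : H (Zr (fun _ : Unit => S.τ) (fun _ : Unit => (-1 : k)) (S.X r) (S.X q))
      (Zr (fun _ : Unit => S.τ) (fun _ : Unit => (-1 : k)) (S.X r) (S.X r)) j,
      IsCut.pullW (fun _ : Unit => (-1 : k)) hid cC.subX (fun x hx => hx)
        (cC.subA.trans cC.subX) (fun x hx => hx) j w = w := by
      intro w
      obtain ⟨c, hc, rfl⟩ := H.exists_mk w
      rfl
    rw [h2, h2] at h1
    exact h1
  -- naturality along `ψ`
  have e2 := IsCut.pull_eW (χ := fun _ : Unit => (-1 : k)) cB cC (W.isMapX hr hr0)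
    (fun x hx => W.mapsTo_F2 hr hr0 hx) (fun x hx => W.mapsTo_F2 hq h0 hx)
    (fun x hx hN hN' => B.disj _ (hψ _ (hD x hx))
        (B.sub₁ _ (hψ _ (hD x hx)) (g1 x hx hN).2) hN')
    (fun x hx hN hN' => B.disj _ (hψ _ (hD x hx)) hN'
        (B.sub₂ _ (hψ _ (hD x hx)) (g2 x hx hN).2)) j y
  exact e2.trans (e1 _).symm

end Vale.Agent.P216.H16E
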