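import Vale.Agent.P216.H16E.Pack

/-!
# The field `ℓ_e` of `Loc2` (P216, Theorem C, block E2)
-/

open Set

namespace Vale.Agent.P216.H16E

open AS AS.GCx.Pair DV DV.Circ H467E H941S

variable {Λ : Type} [MetricSpace Λ] {S : GSys Λ} (W : S.Two)

section Small

variable (k : Type) [Field k] (hm : S4.Ord k 4) {a ε a' ε' : ℝ} (B : FamD S 4 a ε)
  (B' : FamD S 4 a' ε')

/-- The restriction to the fixed set and the pull back by `ψ` intertwine the two cut operators, on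
the pairs of size `≤ η`. -/
def Inter (η : ℝ) : Prop :=
  ∀ {s t q r : ℝ} (h' : s ≤ t) (h : q ≤ r) (h0 : 0 ≤ q) (hq : 2 * q = s) (hr : 2 * r = t),
    a - η ≤ s → t ≤ a + η → ∀ (hs : a - ε ≤ s) (ht : t ≤ a + ε) (hs' : a' - ε' ≤ q)
    (ht' : r ≤ a' + ε') (j : ℕ) (y : H (GSys.Two.S4 S k t s) (GSys.Two.A4 S k t) j),
    W.fixMapR k hq hr h0 h j (Hmap (B.isCut_fix 2 h' hs ht).isMor j y) =
      (B'.cut k hm.pos h hs' ht').eN (S.good k 4 hm.pos _) (S.goodSub k 4 hm.pos h) j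
        (W.fixMapR k hq hr h0 h j y)

variable {W k hm B B'}

/-- the localisation commutes with the projections, small pairs -/
theorem locM_small (R : RotS S) {η : ℝ} (H : Inter W k hm B B' η) {s t : ℝ} (h : s ≤ t)
    (h0 : 0 < s) (h1 : a - η ≤ s) (h2 : t ≤ a + η) (hs : a - ε ≤ s) (ht : t ≤ a + ε)
    (hs' : a' - ε' ≤ hf s) (ht' : hf t ≤ a' + ε') (e j : ℕ) (x : (R.pstQM k hm h).F e) :
    locM W R k hm h h0 e j ((opF R k hm B e).e h hs ht x) =
      (opH k hm B' j).e (hf_mono.monotone h) hs' ht' (locM W R k hm h h0 e j x) := by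
  have key := W.locR_mapF (D := R.circM k hm) hm.two (circM_hD R k hm) (two_hf s) (two_hf t)
    (hf_nonneg h0) (hf_mono.monotone h) h (R.tri4Q k hm h).hS (R.tri4Q k hm h).hA
    (R.pstQM k hm h)
    ((B.cut k hm.pos h hs ht).isGMor (S.good k 4 hm.pos _) (S.goodSub k 4 hm.pos h))
    ((B.isCut_fix 2 h hs ht).isMor)
    (fun {n x} hx => (B.cut k hm.pos h hs ht).comm_A (S.good k 4 hm.pos _)
      (S.goodSub k 4 hm.pos h) (fun i => (i : k)) (circM_hb R k hm) hx) j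
    (ε := (B'.cut k hm.pos (hf_mono.monotone h) hs' ht').eN (S.good k 4 hm.pos _)
      (S.goodSub k 4 hm.pos (hf_mono.monotone h)) j)
    (H h (hf_mono.monotone h) (hf_nonneg h0) (two_hf s) (two_hf t) h1 h2 hs ht hs' ht' j) e x
  exact key

end Small

variable (R : RotS S) (k : Type) [Field k] (hm : S4.Ord k 4)

open H994 (Adm)

theorem crit_dbl {c : ℝ} (hc : c ∈ Crit S.ℓ) : ∃ b ∈ Crit S.ℓ, hf b = c := by
  obtain ⟨i, m, hm, rfl⟩ := hc
  refine ⟨_, ⟨i, 2 * m, ?_, rfl⟩, ?_⟩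
  · omega
  · unfold hf
    push_cast
    ring

/-- **The field `ℓ_e`.** -/
theorem ℓ_e_of (H : ∀ c (hc : 0 < c) (hc' : 0 < hf c),
      ∃ η > 0, Inter W k hm (famB W c hc) (famB W (hf c) hc') η)
    {s t : ℝ} (h : Adm (Crit S.ℓ) s t) (h' : Adm (Crit S.ℓ) (hf s) (hf t)) (e j : ℕ)
    (x : (R.pstQM k hm h.le).F e) :
    locM W R k hm h.le h.pos e j (eR W R k hm h e x) =
      eN W k hm h' j (locM W R k hm h.le h.pos e j x) := by
  refine (famF W R k hm e).E_nat (famH W k hm j) (σ := hf) hf_mono hf_cont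
    (fun c hc => crit_dbl hc) (fun h h0 => locM W R k hm h h0 e j) ?_ (thH_self k hm j) ?_ h h' x
  · intro s t s' t' h h' p p' a b x
    exact locM_res W R k hm h h' p p' a b e j x
  · intro c hc hc' _ _
    obtain ⟨η, hη, H⟩ := H c hc hc'
    refine ⟨η, hη, fun s1 t1 h1 _ _ l1 l2 p a b a' b' y => ?_⟩
    exact locM_small R H h1 p l1 l2 a b a' b' e j y

end Vale.Agent.P216.H16E
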