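import Vale.Agent.P216.H16E.PTh
import Vale.Agent.P216.H828.Five
import Vale.Agent.P216.H670.Rel

/-!
# The theories `H (X t, X s)` and `F (X t, X s)` of a `GSys`

They are insensitive to moving `s`, `t` without meeting a critical level (`GSys.Q_bijective`).
-/

open Set Topology

namespace Vale.Agent.P216.GSys

open AS AS.GCx.Pair

variable {Λ : Type} [PseudoMetricSpace Λ] (S : GSys Λ) (k : Type) [Field k] (p : ℕ) (hp : 0 < p)

section

variable {s t s' t' : ℝ} (h : s ≤ t) (h' : s' ≤ t') (a : s' ≤ s) (b : t' ≤ t)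

include a b in
theorem Q_leS : (S.Q k p hp h).S ≤ (S.Q k p hp h').S := Zr_anti (S.mono _ _ b) (S.mono _ _ a)

include b in
theorem Q_leT : (S.Q k p hp h).T ≤ (S.Q k p hp h').T := Zr_anti (S.mono _ _ b) (S.mono _ _ b)

include b in
theorem W_leS : (S.W k p hp h).S ≤ (S.W k p hp h').S := Cc_anti (S.mono _ _ b)

include a b in
theorem W_leT : (S.W k p hp h).T ≤ (S.W k p hp h').T := Zr_anti (S.mono _ _ b) (S.mono _ _ a)

/-- The cohomology of `X s` in the world `X t`. -/
theorem W_bij (hs' : 0 < s') (h1 : ∀ x ∈ Icc s' s, x ∉ Crit S.ℓ) (n : ℕ) :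
    Function.Bijective (resH (P := S.W k p hp h) (P' := S.W k p hp h')
      (S.W_leS k p hp h h' b) (S.W_leT k p hp h h' a b) n) := by
  have e1 := S.W_bijective (k := k) (p := p) (hp := hp) h n
  have e2 := S.W_bijective (k := k) (p := p) (hp := hp) h' n
  have e3 := S.res_bijective (k := k) hs' a h1 (S.mono _ _ a) n
  have e4 := e3.comp e1
  have key : (resH (P := S.W k p hp h') (P' := S.P k p hp s')
      (Cc_anti (S.mono s' t' h')) (Zr_anti (S.mono s' t' h') le_rfl) n) ∘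
      (resH (P := S.W k p hp h) (P' := S.W k p hp h')
      (S.W_leS k p hp h h' b) (S.W_leT k p hp h h' a b) n) =
      (AS.res (S.mono _ _ a) n : S.V k s n →ₗ[k] S.V k s' n) ∘
        (resH (P := S.W k p hp h) (P' := S.P k p hp s)
      (Cc_anti (S.mono s t h)) (Zr_anti (S.mono s t h) le_rfl) n) := by
    funext x
    obtain ⟨c, hc, rfl⟩ := H.exists_mk x
    rfl
  have e4' := e4
  rw [← key] at e4'
  exact (Function.Bijective.of_comp_iff' e2 _).1 e4'

/-- **The relative cohomology is insensitive to moving the levels without meeting a critical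
level.** -/
theorem Q_bijective (hs' : 0 < s') (h1 : ∀ x ∈ Icc s' s, x ∉ Crit S.ℓ)
    (h2 : ∀ x ∈ Icc t' t, x ∉ Crit S.ℓ) (n : ℕ) :
    Function.Bijective (resH (P := S.Q k p hp h) (P' := S.Q k p hp h')
      (S.Q_leS k p hp h h' a b) (S.Q_leT k p hp h h' b) n) := by
  have b1 : ∀ n, Function.Bijective (Hmap (IsMor.id_of_le (S := (S.P k p hp t).S)
      (T := (S.P k p hp t).T) (S' := (S.P k p hp t').S) (T' := (S.P k p hp t').T)
      (Cc_anti (S.mono _ _ b)) (Zr_anti (S.mono _ _ b) (S.mono _ _ b))) n) := fun n =>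
    S.res_bijective (k := k) (hs'.trans_le h') b h2 (S.mono _ _ b) n
  have b2 : ∀ n, Function.Bijective (Hmap (IsMor.id_of_le (S := (S.P k p hp t).S)
      (T := (S.Q k p hp h).S) (S' := (S.P k p hp t').S) (T' := (S.Q k p hp h').S)
      (Cc_anti (S.mono _ _ b)) (S.Q_leS k p hp h h' a b)) n) := fun n =>
    S.W_bij k p hp h h' a b hs' h1 n
  exact H828.five_left (R := (S.P k p hp t).S) (S := (S.Q k p hp h).S) (T := (S.P k p hp t).T)
    (R' := (S.P k p hp t').S) (S' := (S.Q k p hp h').S) (T' := (S.P k p hp t').T)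
    (Zr_anti le_rfl (S.mono s t h)) Zr_le_Cc (Zr_anti le_rfl (S.mono s' t' h')) Zr_le_Cc
    _ _ (IsMor.id_of_le (S.Q_leS k p hp h h' a b) (S.Q_leT k p hp h h' b)) b1 b2 n

end

end Vale.Agent.P216.GSys

namespace Vale.Agent.P216.H16E

open AS AS.GCx.Pair DV DV.Circ

variable {Λ : Type} [PseudoMetricSpace Λ] (S : GSys Λ) (k : Type) [Field k] (p : ℕ) (hp : 0 < p)

/-- The theory `H^n (X t, X s)`. -/
def thH (n : ℕ) : PTh k (Crit S.ℓ) where
  T h := (S.Q k p hp h).HH n
  map h h' a b := resH (P := S.Q k p hp h) (P' := S.Q k p hp h')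
    (S.Q_leS k p hp h h' a b) (S.Q_leT k p hp h h' b) n
  map_map _ _ _ _ _ _ _ x := by
    obtain ⟨c, hc, rfl⟩ := H.exists_mk x
    rfl
  bij h h' a b hs h1 h2 := S.Q_bijective k p hp h h' a b hs h1 h2 n

variable {X : Circ (S.sym k p hp).gcx}

/-- The theory `F^n (X t, X s)`. -/
def thF (hX : ∀ {s t : ℝ} (h : s ≤ t), X.PSt (S.Q k p hp h)) (n : ℕ) :
    PTh k (Crit S.ℓ) where
  T h := (hX h).F n
  map h h' a b := PSt.resF (hX h) (hX h') (S.Q_leS k p hp h h' a b) (S.Q_leT k p hp h h' b) n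
  map_map h h' h'' a b a' b' x := by
    refine Subtype.ext ?_
    rw [PSt.resF_coe, PSt.resF_coe, PSt.resF_coe]
    obtain ⟨c, hc, h1⟩ := H.exists_mk x.1
    rw [← h1]
    rfl
  bij h h' a b hs h1 h2 := PSt.resF_bij (hX h) (hX h') (S.Q_leS k p hp h h' a b)
    (S.Q_leT k p hp h h' b)
    (fun n => resF_bijective (P := S.Q k p hp h) (P' := S.Q k p hp h')
      (S.Q_leS k p hp h h' a b) (S.Q_leT k p hp h h' b)
      (fun n => S.Q_bijective k p hp h h' a b hs h1 h2 n) n) n

end Vale.Agent.P216.H16E
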