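import Vale.Agent.P216.H16E.Glue
import Vale.Agent.P216.H16E.PH
import Vale.Agent.P216.H941S.Fix4
import Vale.Agent.P216.S4.Fix4

/-!
# The localisation `F (X t, X s) → H (X (t / 2), X (s / 2))` as a map of theories
-/

open Set

namespace Vale.Agent.P216.H16E

open AS AS.GCx.Pair DV DV.Circ H941S

variable {Λ : Type} [MetricSpace Λ] {S : GSys Λ} (W : S.Two) (R : RotS S) (k : Type) [Field k]
  (hm : S4.Ord k 4)

/-- half of a level -/
noncomputable abbrev hf (s : ℝ) : ℝ := s / ((2 : ℕ) : ℝ)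

theorem two_hf (s : ℝ) : 2 * hf s = s := by
  unfold hf
  push_cast
  ring

theorem hf_mono : StrictMono hf := fun a b h => by
  unfold hf
  push_cast
  linarith

theorem hf_cont : Continuous hf := continuous_id.div_const _

theorem hf_pos {s : ℝ} (h : 0 < s) : 0 < hf s := by
  unfold hf
  push_cast
  linarith

theorem hf_nonneg {s : ℝ} (h : 0 < s) : 0 ≤ hf s := (hf_pos h).le

/-- the operator `A` of the circle data -/
theorem circM_hD (n : ℕ) (x : (ASK Λ k).K n) : (R.circM k hm).A n x =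
    ∑ i ∈ Finset.range 4, (i : k) • (((S.sym k 4 hm.pos).gK n) ^ i) x := R.circM_A k hm n x

/-- **The localisation of a pair.** -/
noncomputable def locM {s t : ℝ} (h : s ≤ t) (h0 : 0 < s) (e j : ℕ) :
    (R.pstQM k hm h).F e →ₗ[k] (S.Q k 4 hm.pos (hf_mono.monotone h)).HH j :=
  W.locR (D := R.circM k hm) hm.two (circM_hD R k hm) (two_hf s) (two_hf t) (hf_nonneg h0)
    (hf_mono.monotone h) h (R.tri4Q k hm h).hS (R.tri4Q k hm h).hA (R.pstQM k hm h) e j

/-- **Naturality.** -/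
theorem locM_res {s t s' t' : ℝ} (h : s ≤ t) (h' : s' ≤ t') (p : 0 < s) (p' : 0 < s')
    (a : s' ≤ s) (b : t' ≤ t) (e j : ℕ) (x : (R.pstQM k hm h).F e) :
    locM W R k hm h' p' e j ((thF S k 4 hm.pos (fun h => R.pstQM k hm h) e).map h h' a b x) =
      (thH S k 4 hm.pos j).map (hf_mono.monotone h) (hf_mono.monotone h') (hf_mono.monotone a)
        (hf_mono.monotone b) (locM W R k hm h p e j x) := by
  have h1 := (GSys.Two.triR (D := R.circM k hm) hm.two (circM_hD R k hm) h (R.tri4Q k hm h).hS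
    (R.tri4Q k hm h).hA).ell_resF (P := S.Q k 4 hm.pos h) (GSys.Two.Q_le_S4 h)
    (GSys.Two.Q_le_A4 h) (R.pstQM k hm h)
    (GSys.Two.triR (D := R.circM k hm) hm.two (circM_hD R k hm) h' (R.tri4Q k hm h').hS
    (R.tri4Q k hm h').hA) (Q := S.Q k 4 hm.pos h') (GSys.Two.Q_le_S4 h') (GSys.Two.Q_le_A4 h')
    (R.pstQM k hm h') (S.Q_leS k 4 hm.pos h h' a b) (S.Q_leT k 4 hm.pos h h' b)
    (Zr_anti (S.mono _ _ b) (GSys.Two.F2_mono S a))
    (Zr_anti (S.mono _ _ b) (GSys.Two.F2_mono S b)) e j x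
  have h2 : ∀ z : H (GSys.Two.S4 S k t s) (GSys.Two.A4 S k t) j,
      W.fixMapR k (two_hf s') (two_hf t') (hf_nonneg p') (hf_mono.monotone h') j
        (Hinc (Zr_anti (S.mono _ _ b) (GSys.Two.F2_mono S a))
          (Zr_anti (S.mono _ _ b) (GSys.Two.F2_mono S b)) j z) =
      resH (P := S.Q k 4 hm.pos (hf_mono.monotone h)) (P' := S.Q k 4 hm.pos (hf_mono.monotone h'))
        (S.Q_leS k 4 hm.pos _ _ (hf_mono.monotone a) (hf_mono.monotone b))
        (S.Q_leT k 4 hm.pos _ _ (hf_mono.monotone b)) j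
        (W.fixMapR k (two_hf s) (two_hf t) (hf_nonneg p) (hf_mono.monotone h) j z) := by
    intro z
    obtain ⟨c, hc, rfl⟩ := H.exists_mk z
    rfl
  exact (congrArg (W.fixMapR k (two_hf s') (two_hf t') (hf_nonneg p') (hf_mono.monotone h') j)
    h1).trans (h2 _)

end Vale.Agent.P216.H16E
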