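import Vale.Agent.P216.AS.Cx

/-!
# Theories of pairs of sublevel sets and operators at one critical level

`PTh`: a functor `(s, t) ↦ T (s, t)` on the pairs of levels `s ≤ t`, which is insensitive to moving
`s` and `t` without meeting a critical level.

`Op T c ε`: an operator on all `T (s, t)` with `c - ε ≤ s ≤ t ≤ c + ε`, natural.

`Op.tr`: the operator transported to an arbitrary pair `s < c < t` without other critical levels;
it is natural and only depends on the operator at one small pair.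
-/

open Set

namespace Vale.Agent.P216.H16E

variable {k : Type} [Field k]

/-- A theory of pairs. -/
structure PTh (k : Type) [Field k] (crit : Set ℝ) where
  T : ∀ {s t : ℝ}, s ≤ t → Type
  [ag : ∀ {s t : ℝ} (h : s ≤ t), AddCommGroup (T h)]
  [mo : ∀ {s t : ℝ} (h : s ≤ t), Module k (T h)]
  map : ∀ {s t s' t' : ℝ} (h : s ≤ t) (h' : s' ≤ t'), s' ≤ s → t' ≤ t → T h →ₗ[k] T h'
  map_map : ∀ {s t s' t' s'' t'' : ℝ} (h : s ≤ t) (h' : s' ≤ t') (h'' : s'' ≤ t'')
    (a : s' ≤ s) (b : t' ≤ t) (a' : s'' ≤ s') (b' : t'' ≤ t') (x : T h),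
    map h' h'' a' b' (map h h' a b x) = map h h'' (a'.trans a) (b'.trans b) x
  bij : ∀ {s t s' t' : ℝ} (h : s ≤ t) (h' : s' ≤ t') (a : s' ≤ s) (b : t' ≤ t), 0 < s' →
    (∀ x ∈ Icc s' s, x ∉ crit) → (∀ x ∈ Icc t' t, x ∉ crit) →
    Function.Bijective (map h h' a b)

attribute [instance] PTh.ag PTh.mo

variable {crit : Set ℝ}

/-- The pair `s < c < t` of levels contains no critical level besides `c`. -/
structure Only (crit : Set ℝ) (c s t : ℝ) : Prop where
  pos : 0 < s
  lt : s < c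
  lt' : c < t
  only : ∀ x ∈ Icc s t, x ∈ crit → x = c

namespace Only

variable {c s t s' t' : ℝ}

theorem le (h : Only crit c s t) : s ≤ t := (h.lt.trans h.lt').le

theorem mono (h : Only crit c s t) (a : s ≤ s') (b : t' ≤ t) (a' : s' < c) (b' : c < t') :
    Only crit c s' t' :=
  ⟨h.pos.trans_le a, a', b', fun x hx hc => h.only x ⟨a.trans hx.1, hx.2.trans b⟩ hc⟩

theorem left (h : Only crit c s t) (a' : s' < c) : ∀ x ∈ Icc s s', x ∉ crit := by
  intro x hx hc
  have h1 := h.only x ⟨hx.1, hx.2.trans (a'.trans h.lt').le⟩ hc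
  have h2 := hx.2
  linarith

theorem right (h : Only crit c s t) (b' : c < t') : ∀ x ∈ Icc t' t, x ∉ crit := by
  intro x hx hc
  have h1 := h.only x ⟨(h.lt.trans b').le.trans hx.1, hx.2⟩ hc
  have h2 := hx.1
  linarith

end Only

namespace PTh

variable (T : PTh k crit)

/-- transport of an operator along `α : M ≃ P`, `β : Q ≃ P` -/
noncomputable def conj {M P Q : Type} [AddCommGroup M] [Module k M] [AddCommGroup P] [Module k P]
    [AddCommGroup Q] [Module k Q] {α : M →ₗ[k] P} {β : Q →ₗ[k] P} (hα : Function.Bijective α)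
    (hβ : Function.Bijective β) (e : Q →ₗ[k] Q) : M →ₗ[k] M :=
  (LinearEquiv.ofBijective α hα).symm.toLinearMap ∘ₗ β ∘ₗ e ∘ₗ
    (LinearEquiv.ofBijective β hβ).symm.toLinearMap ∘ₗ α

theorem conj_eq {M P Q : Type} [AddCommGroup M] [Module k M] [AddCommGroup P] [Module k P]
    [AddCommGroup Q] [Module k Q] {α : M →ₗ[k] P} {β : Q →ₗ[k] P} (hα : Function.Bijective α)
    (hβ : Function.Bijective β) (e : Q →ₗ[k] Q) {x : M} {y : Q} (hxy : α x = β y) :
    α (conj hα hβ e x) = β (e y) := by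
  have h1 : (LinearEquiv.ofBijective β hβ).symm (α x) = y := by
    rw [LinearEquiv.symm_apply_eq]
    exact hxy
  change α ((LinearEquiv.ofBijective α hα).symm
    (β (e ((LinearEquiv.ofBijective β hβ).symm (α x))))) = _
  rw [h1]
  exact (LinearEquiv.ofBijective α hα).apply_symm_apply _

end PTh

/-- An operator on the small pairs around `c`. -/
structure Op (T : PTh k crit) (c ε : ℝ) where
  e : ∀ {s t : ℝ} (h : s ≤ t), c - ε ≤ s → t ≤ c + ε → T.T h →ₗ[k] T.T h
  nat : ∀ {s t s' t' : ℝ} (h : s ≤ t) (h' : s' ≤ t') (a : s' ≤ s) (b : t' ≤ t)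
    (h1 : c - ε ≤ s') (h2 : t ≤ c + ε) (x : T.T h),
    T.map h h' a b (e h (h1.trans a) h2 x) = e h' h1 (b.trans h2) (T.map h h' a b x)

namespace Op

variable {T : PTh k crit} {c ε s t : ℝ}

theorem s1_le (hε : 0 < ε) (h : Only crit c s t) : max s (c - ε) ≤ min t (c + ε) := by
  have h1 := h.lt
  have h2 := h.lt'
  exact le_min (max_le h.le (by linarith)) (max_le (by linarith) (by linarith))

theorem s_le (hε : 0 < ε) (h : Only crit c s t) : s ≤ min t (c + ε) :=
  (le_max_left _ _).trans (s1_le hε h)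

theorem bijα (T : PTh k crit) (hε : 0 < ε) (h : Only crit c s t) :
    Function.Bijective (T.map h.le (s_le hε h) le_rfl (min_le_left t (c + ε))) := by
  have h1 := h.lt
  have h2 := h.lt'
  exact T.bij _ _ _ _ h.pos (h.left h.lt) (h.right (lt_min h2 (by linarith)))

theorem bijβ (T : PTh k crit) (hε : 0 < ε) (h : Only crit c s t) :
    Function.Bijective (T.map (s1_le hε h) (s_le hε h) (le_max_left s (c - ε)) le_rfl) := by
  have h1 := h.lt
  have h2 := h.lt'
  refine T.bij _ _ _ _ h.pos (h.left (max_lt h1 (by linarith))) ?_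
  intro x hx hc
  have h3 := h.only x ⟨(s_le hε h).trans hx.1, hx.2.trans (min_le_left _ _)⟩ hc
  have h4 : c < min t (c + ε) := lt_min h2 (by linarith)
  have h5 := hx.1
  linarith

/-- The transported operator. -/
noncomputable def tr (O : Op T c ε) (hε : 0 < ε) (h : Only crit c s t) :
    T.T h.le →ₗ[k] T.T h.le :=
  PTh.conj (bijα T hε h) (bijβ T hε h) (O.e (s1_le hε h) (le_max_right _ _) (min_le_right _ _))

/-- The transported operator is determined by one small pair. -/
theorem tr_spec (O : Op T c ε) (hε : 0 < ε) (h : Only crit c s t) {η : ℝ} (hη : 0 < η)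
    (hηε : η ≤ ε) (h1 : s ≤ c - η) (h2 : c + η ≤ t) (hη' : c - η ≤ c + η) (hsη : s ≤ c + η)
    {x : T.T h.le} {y : T.T hη'}
    (hxy : T.map h.le hsη le_rfl h2 x = T.map hη' hsη h1 le_rfl y) :
    T.map h.le hsη le_rfl h2 (O.tr hε h x) =
      T.map hη' hsη h1 le_rfl (O.e hη' (by linarith) (by linarith) y) := by
  obtain ⟨z, hz⟩ := (bijβ T hε h).2 (T.map h.le (s_le hε h) le_rfl (min_le_left _ _) x)
  have e1 := PTh.conj_eq (bijα T hε h) (bijβ T hε h)
    (O.e (s1_le hε h) (le_max_right _ _) (min_le_right _ _)) hz.symm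
  change T.map _ _ _ _ (O.tr hε h x) = _ at e1
  have hc1 : c + η ≤ min t (c + ε) := le_min h2 (by linarith)
  have hc2 : max s (c - ε) ≤ c - η := max_le h1 (by linarith)
  have hc3 : max s (c - ε) ≤ c + η := hc2.trans hη'
  -- the middle pair `(max s (c - ε), c + η)`
  have e2 : T.map (s1_le hε h) hc3 le_rfl hc1 z = T.map hη' hc3 hc2 le_rfl y := by
    have hb : Function.Bijective (T.map hc3 hsη (le_max_left s (c - ε)) le_rfl) := by
      refine T.bij _ _ _ _ h.pos (h.left (hc2.trans_lt (by linarith))) ?_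
      intro w hw hwc
      have h3 := h.only w ⟨hsη.trans hw.1, hw.2.trans h2⟩ hwc
      have h5 := hw.1
      linarith
    refine hb.1 ?_
    rw [T.map_map, T.map_map]
    rw [← hxy]
    have e3 := congrArg (T.map (s_le hε h) hsη le_rfl hc1) hz
    rw [T.map_map, T.map_map] at e3
    exact e3
  have e4 := congrArg (T.map (s_le hε h) hsη le_rfl hc1) e1
  rw [T.map_map, T.map_map] at e4
  rw [e4]
  have e5 := O.nat (s1_le hε h) hc3 le_rfl hc1 (le_max_right _ _) (min_le_right _ _) z
  have e6 := O.nat hη' hc3 hc2 le_rfl (le_max_right s (c - ε)) (by linarith) y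
  have e7 := congrArg (T.map hc3 hsη (le_max_left s (c - ε)) le_rfl) (e5.trans ((congrArg _ e2).trans e6.symm))
  rw [T.map_map, T.map_map] at e7
  exact e7

/-- existence of the small representative -/
theorem exists_rep (T : PTh k crit) (h : Only crit c s t) {η : ℝ} (hη : 0 < η)
    (h1 : s ≤ c - η) (h2 : c + η ≤ t) (hη' : c - η ≤ c + η) (hsη : s ≤ c + η)
    (x : T.T h.le) : ∃ y : T.T hη',
    T.map h.le hsη le_rfl h2 x = T.map hη' hsη h1 le_rfl y := by
  have hb : Function.Bijective (T.map hη' hsη h1 le_rfl) := by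
    refine T.bij _ _ _ _ h.pos (h.left (by linarith)) ?_
    intro w hw hwc
    have h3 := h.only w ⟨hsη.trans hw.1, hw.2.trans h2⟩ hwc
    have h5 := hw.1
    linarith
  obtain ⟨y, hy⟩ := hb.2 (T.map h.le hsη le_rfl h2 x)
  exact ⟨y, hy.symm⟩

theorem map_inj (T : PTh k crit) (h : Only crit c s t) {η : ℝ} (hη : 0 < η)
    (h2 : c + η ≤ t) (hsη : s ≤ c + η) : Function.Injective (T.map h.le hsη le_rfl h2) :=
  (T.bij _ _ _ _ h.pos (h.left h.lt) (h.right (by linarith))).1

/-- **Naturality of the transport** along a natural family `m` between two theories. -/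
theorem tr_nat {T : PTh k crit} {T' : PTh k crit}
    (m : ∀ {s t : ℝ} (h : s ≤ t), T.T h →ₗ[k] T'.T h)
    (hm : ∀ {s t s' t' : ℝ} (h : s ≤ t) (h' : s' ≤ t') (a : s' ≤ s) (b : t' ≤ t) (x : T.T h),
      m h' (T.map h h' a b x) = T'.map h h' a b (m h x))
    {ε ε' : ℝ} (O : Op T c ε) (O' : Op T' c ε') (hε : 0 < ε) (hε' : 0 < ε') (h : Only crit c s t)
    {η₀ : ℝ} (hη₀ : 0 < η₀)
    (hO : ∀ η, 0 < η → η ≤ η₀ → ∀ (h1 : c - ε ≤ c - η) (h2 : c + η ≤ c + ε)
      (h1' : c - ε' ≤ c - η) (h2' : c + η ≤ c + ε') (hη' : c - η ≤ c + η) (x : T.T hη'),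
      m hη' (O.e hη' h1 h2 x) = O'.e hη' h1' h2' (m hη' x))
    (x : T.T h.le) : m h.le (O.tr hε h x) = O'.tr hε' h (m h.le x) := by
  have l1 := h.lt
  have l2 := h.lt'
  obtain ⟨η, hη, hη1⟩ : ∃ η : ℝ, 0 < η ∧ η < min (min ε ε') (min η₀ (min (c - s) (t - c))) :=
    exists_between (lt_min (lt_min hε hε') (lt_min hη₀ (lt_min (by linarith) (by linarith))))
  have a1 := hη1.trans_le ((min_le_left _ _).trans (min_le_left _ _))
  have a2 := hη1.trans_le ((min_le_left _ _).trans (min_le_right _ _))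
  have a3 := hη1.trans_le ((min_le_right _ _).trans (min_le_left _ _))
  have a4 := hη1.trans_le ((min_le_right _ _).trans ((min_le_right _ _).trans (min_le_left _ _)))
  have a5 := hη1.trans_le ((min_le_right _ _).trans ((min_le_right _ _).trans (min_le_right _ _)))
  have h1 : s ≤ c - η := by linarith
  have h2 : c + η ≤ t := by linarith
  have hη' : c - η ≤ c + η := by linarith
  have hsη : s ≤ c + η := h1.trans hη'
  obtain ⟨y, hy⟩ := exists_rep T h hη h1 h2 hη' hsη x
  have e1 := O.tr_spec hε h hη a1.le h1 h2 hη' hsη hy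
  have hy' : T'.map h.le hsη le_rfl h2 (m h.le x) = T'.map hη' hsη h1 le_rfl (m hη' y) := by
    rw [← hm, ← hm, hy]
  have e2 := O'.tr_spec hε' h hη a2.le h1 h2 hη' hsη hy'
  refine map_inj T' h hη h2 hsη ?_
  rw [e2, ← hm, e1, hm]
  congr 1
  exact hO η hη a3.le _ _ _ _ hη' y

end Op

end Vale.Agent.P216.H16E
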