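import Vale.Agent.P216.H16E.LocM
import Vale.Agent.P216.H467E.FamD
import Vale.Agent.P216.H670.Rel2F

/-!
# The projections `eN`, `eR` at all admissible pairs (P216, Theorem C, block E2)

* `opH`, `opF` : the operators of a family of cut data at one level;
* `eN`, `eR` : the operators at all admissible pairs; `e_π`, `θ_e`;
* `rel4` : the structure `Rel2`.
-/

open Set

namespace Vale.Agent.P216.H16E

open AS AS.GCx.Pair DV DV.Circ H467E

variable {Λ : Type} [MetricSpace Λ] {S : GSys Λ}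

section Level

variable (R : RotS S) (k : Type) [Field k] (hm : S4.Ord k 4) {a ε : ℝ} (B : FamD S 4 a ε)

/-- The operator on `H (X t, X s)` of a family of cut data. -/
noncomputable def opH (n : ℕ) : Op (thH S k 4 hm.pos n) a ε where
  e h h1 h2 := (B.cut k hm.pos h h1 h2).eN (S.good k 4 hm.pos _) (S.goodSub k 4 hm.pos h) n
  nat _ _ _ _ _ _ x := by
    obtain ⟨c, hc, rfl⟩ := H.exists_mk x
    rfl

theorem circM_hb (n : ℕ) (x : (ASK Λ k).K n) : (R.circM k hm).A n x =
    sumK (S.sym k 4 hm.pos) (fun i => (i : k)) n x := rfl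

/-- The operator on `F (X t, X s)` of a family of cut data. -/
noncomputable def opF (n : ℕ) : Op (thF S k 4 hm.pos (fun h => R.pstQM k hm h) n) a ε where
  e h h1 h2 := (B.cut k hm.pos h h1 h2).eR (S.good k 4 hm.pos _) (S.goodSub k 4 hm.pos h)
    (R.pstQM k hm h) (fun i => (i : k)) (circM_hb R k hm) n
  nat h h' a b h1 h2 x := by
    have key : ∀ z : (S.Q k 4 hm.pos h).FF (n + 1),
        GCx.Pair.resF (P := S.Q k 4 hm.pos h) (P' := S.Q k 4 hm.pos h')
          (S.Q_leS k 4 hm.pos h h' a b) (S.Q_leT k 4 hm.pos h h' b) (n + 1)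
          ((B.cut k hm.pos h (h1.trans a) h2).eFF (S.good k 4 hm.pos _)
            (S.goodSub k 4 hm.pos h) (n + 1) z) =
        (B.cut k hm.pos h' h1 (b.trans h2)).eFF (S.good k 4 hm.pos _)
            (S.goodSub k 4 hm.pos h') (n + 1)
          (GCx.Pair.resF (P := S.Q k 4 hm.pos h) (P' := S.Q k 4 hm.pos h')
            (S.Q_leS k 4 hm.pos h h' a b) (S.Q_leT k 4 hm.pos h h' b) (n + 1) z) := by
      intro z
      obtain ⟨c, hc, e⟩ := H.exists_mk z
      rw [← e]
      rfl
    exact Subtype.ext (key x.1)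

end Level

/-! ### One family at every level -/

variable (W : S.Two)

include W in
theorem exists_eps (c : ℝ) : ∃ ε : ℝ, 0 < c → (0 < ε ∧ Nonempty (FamD S 4 c ε)) := by
  by_cases hc : 0 < c
  · obtain ⟨ε, h1, -, B, -⟩ := exists_fam W hc isOpen_univ isOpen_univ (subset_univ _)
      (subset_univ _)
    exact ⟨ε, fun _ => ⟨h1, ⟨B⟩⟩⟩
  · exact ⟨1, fun h => absurd h hc⟩

/-- the size of the chosen family at the level `c` -/
noncomputable def famEps (c : ℝ) : ℝ := (exists_eps W c).choose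

theorem famEps_pos (c : ℝ) (hc : 0 < c) : 0 < famEps W c := ((exists_eps W c).choose_spec hc).1

/-- the chosen family at the level `c` -/
noncomputable def famB (c : ℝ) (hc : 0 < c) : FamD S 4 c (famEps W c) :=
  Classical.choice ((exists_eps W c).choose_spec hc).2

variable (R : RotS S) (k : Type) [Field k] (hm : S4.Ord k 4)

/-- the operators on the `H (X t, X s)` -/
noncomputable def famH (n : ℕ) : Fam (thH S k 4 hm.pos n) where
  ε := famEps W
  pos := famEps_pos W
  op c hc := opH k hm (famB W c hc) n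

/-- the operators on the `F (X t, X s)` -/
noncomputable def famF (n : ℕ) : Fam (thF S k 4 hm.pos (fun h => R.pstQM k hm h) n) where
  ε := famEps W
  pos := famEps_pos W
  op c hc := opF R k hm (famB W c hc) n

theorem thH_self (n : ℕ) (s : ℝ) : Subsingleton ((thH S k 4 hm.pos n).T (le_refl s)) := by
  refine ⟨fun x y => ?_⟩
  have key : ∀ z : (S.Q k 4 hm.pos (le_refl s)).HH n, z = 0 := by
    intro z
    obtain ⟨c, hc, rfl⟩ := H.exists_mk z
    exact H.mk_eq_zero.2 (T_le_Bc _ _ _ (mem_Zc.1 hc).1)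
  rw [key x, key y]

open H994 (Adm)

variable {s t : ℝ}

/-- **The projection on `H^n (X t, X s)`.** -/
noncomputable def eN (h : Adm (Crit S.ℓ) s t) (n : ℕ) :
    (S.Q k 4 hm.pos h.le).HH n →ₗ[k] (S.Q k 4 hm.pos h.le).HH n := (famH W k hm n).E h

/-- **The projection on `H^n_{S¹} (X t, X s)`.** -/
noncomputable def eR (h : Adm (Crit S.ℓ) s t) (n : ℕ) :
    (R.pstQM k hm h.le).F n →ₗ[k] (R.pstQM k hm h.le).F n := (famF W R k hm n).E h

/-- **The field `e_π`.** -/
theorem e_π (h : Adm (Crit S.ℓ) s t) (n : ℕ) (x : (R.pstQM k hm h.le).F n) :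
    eN W k hm h n ((R.pstQM k hm h.le).πF n x) =
      (R.pstQM k hm h.le).πF n (eR W R k hm h n x) := by
  refine ((famF W R k hm n).E_nat (famH W k hm n) (σ := fun s => s) strictMono_id continuous_id
    (fun c hc => ⟨c, hc, rfl⟩) (fun h _ => (R.pstQM k hm h).πF n) ?_ (thH_self k hm n) ?_ h h
    x).symm
  · intro s t s' t' h h' _ _ a b x
    exact PSt.πF_resF (R.pstQM k hm h) (R.pstQM k hm h') (S.Q_leS k 4 hm.pos h h' a b)
      (S.Q_leT k 4 hm.pos h h' b) n x
  · intro c hc _ _ _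
    refine ⟨1, one_pos, fun s1 t1 h1 _ _ _ _ _ a b a' b' y => ?_⟩
    exact ((famB W c hc).cut k hm.pos h1 a b).e_π (S.good k 4 hm.pos _)
      (S.goodSub k 4 hm.pos h1) (R.pstQM k hm h1) (fun i => (i : k)) (circM_hb R k hm) n y |>.symm

/-- **The field `θ_e`.** -/
theorem θ_e (h : Adm (Crit S.ℓ) s t) (n : ℕ) (x : (S.Q k 4 hm.pos h.le).HH n) :
    S.relTh k 4 hm.pos h.le n (eN W k hm h n x) =
      S.relTh k 4 hm.pos h.le n x - eN W k hm h n (S.relTh k 4 hm.pos h.le n x) := by
  refine (famH W k hm n).E_theta (fun h => S.relTh k 4 hm.pos h n) ?_ (thH_self k hm n) ?_ h x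
  · intro s t s' t' h h' a b x
    obtain ⟨c, hc, rfl⟩ := H.exists_mk x
    rfl
  · intro c hc
    refine ⟨1, one_pos, fun s1 t1 h1 _ _ _ _ a b y => ?_⟩
    exact ((famB W c hc).cut k hm.pos h1 a b).θ_e (S.good k 4 hm.pos _)
      (S.goodSub k 4 hm.pos h1) ((famB W c hc).cut_revC k hm.pos h1 a b) n y

/-- **The relative groups of an admissible pair.** -/
noncomputable def rel4 (two : (2 : k) = 0) (h : Adm (Crit S.ℓ) s t) :
    H994.Rel2 k (R.gysM k hm t) (R.gysM k hm s) (fun n => S.relRes k 4 hm.pos h.le n)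
      (fun n => R.resFM k hm h.le n) (fun n => S.absTh k 4 hm.pos t n)
      (fun n => S.absTh k 4 hm.pos s n) :=
  R.rel2 k hm h.le two (eN W k hm h) (eR W R k hm h) (e_π W R k hm h) (θ_e W k hm h)

end Vale.Agent.P216.H16E
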